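import Vale.Agent.P048.Q1
import Vale.Agent.P048.Q2
import Vale.Agent.P048.Q3
import Vale.Agent.P048.Q4
import Vale.Agent.P048.Q5
import Vale.Agent.P048.Q6

namespace Vale.Agent.P048

open Finset

variable {V : Type*} [DecidableEq V]

theorem upper_midQ {G : SimpleGraph V} {m : ℕ} (h1 : 168 ≤ m) (h2 : m ≤ 1991) :
    ∀ a, a + 1 ≤ m → ∀ W : Finset V, AlphaLe G W a → (m - 1) * a + 1 ≤ W.card →
      HasCyc G W m := by
  rcases Nat.lt_or_ge 168 m with g0 | g0
  swap
  · exact q_168 h1 g0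
  rcases Nat.lt_or_ge 169 m with g1 | g1
  swap
  · exact q_169 g0 g1
  rcases Nat.lt_or_ge 170 m with g2 | g2
  swap
  · exact q_170 g1 g2
  rcases Nat.lt_or_ge 172 m with g3 | g3
  swap
  · exact q_171 g2 g3
  rcases Nat.lt_or_ge 173 m with g4 | g4
  swap
  · exact q_173 g3 g4
  rcases Nat.lt_or_ge 174 m with g5 | g5
  swap
  · exact q_174 g4 g5
  rcases Nat.lt_or_ge 176 m with g6 | g6
  swap
  · exact q_175 g5 g6
  rcases Nat.lt_or_ge 178 m with g7 | g7
  swap
  · exact q_177 g6 g7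
  rcases Nat.lt_or_ge 180 m with g8 | g8
  swap
  · exact q_179 g7 g8
  rcases Nat.lt_or_ge 182 m with g9 | g9
  swap
  · exact q_181 g8 g9
  rcases Nat.lt_or_ge 185 m with g10 | g10
  swap
  · exact q_183 g9 g10
  rcases Nat.lt_or_ge 189 m with g11 | g11
  swap
  · exact q_186 g10 g11
  rcases Nat.lt_or_ge 193 m with g12 | g12
  swap
  · exact q_190 g11 g12
  rcases Nat.lt_or_ge 198 m with g13 | g13
  swap
  · exact q_194 g12 g13
  rcases Nat.lt_or_ge 204 m with g14 | g14
  swap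
  · exact q_199 g13 g14
  rcases Nat.lt_or_ge 210 m with g15 | g15
  swap
  · exact q_205 g14 g15
  rcases Nat.lt_or_ge 217 m with g16 | g16
  swap
  · exact q_211 g15 g16
  rcases Nat.lt_or_ge 225 m with g17 | g17
  swap
  · exact q_218 g16 g17
  rcases Nat.lt_or_ge 234 m with g18 | g18
  swap
  · exact q_226 g17 g18
  rcases Nat.lt_or_ge 245 m with g19 | g19
  swap
  · exact q_235 g18 g19
  rcases Nat.lt_or_ge 258 m with g20 | g20
  swap
  · exact q_246 g19 g20
  rcases Nat.lt_or_ge 273 m with g21 | g21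
  swap
  · exact q_259 g20 g21
  rcases Nat.lt_or_ge 290 m with g22 | g22
  swap
  · exact q_274 g21 g22
  rcases Nat.lt_or_ge 310 m with g23 | g23
  swap
  · exact q_291 g22 g23
  rcases Nat.lt_or_ge 334 m with g24 | g24
  swap
  · exact q_311 g23 g24
  rcases Nat.lt_or_ge 364 m with g25 | g25
  swap
  · exact q_335 g24 g25
  rcases Nat.lt_or_ge 398 m with g26 | g26
  swap
  · exact q_365 g25 g26
  rcases Nat.lt_or_ge 440 m with g27 | g27
  swap
  · exact q_399 g26 g27
  rcases Nat.lt_or_ge 489 m with g28 | g28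
  swap
  · exact q_441 g27 g28
  rcases Nat.lt_or_ge 548 m with g29 | g29
  swap
  · exact q_490 g28 g29
  rcases Nat.lt_or_ge 621 m with g30 | g30
  swap
  · exact q_549 g29 g30
  rcases Nat.lt_or_ge 709 m with g31 | g31
  swap
  · exact q_622 g30 g31
  rcases Nat.lt_or_ge 818 m with g32 | g32
  swap
  · exact q_710 g31 g32
  rcases Nat.lt_or_ge 951 m with g33 | g33
  swap
  · exact q_819 g32 g33
  rcases Nat.lt_or_ge 1117 m with g34 | g34
  swap
  · exact q_952 g33 g34
  rcases Nat.lt_or_ge 1321 m with g35 | g35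
  swap
  · exact q_1118 g34 g35
  rcases Nat.lt_or_ge 1575 m with g36 | g36
  swap
  · exact q_1322 g35 g36
  rcases Nat.lt_or_ge 1893 m with g37 | g37
  swap
  · exact q_1576 g36 g37
  exact q_1894 g37 h2

end Vale.Agent.P048
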